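import Vale.Agent.Lib.P064Q.Chord1
import Vale.Agent.Lib.P064Q.Chord2

/-!
Chords and the tree combinatorics of the core (notes/P064Q_blueprint.md, part CH): `Chord1` and `Chord2`.
-/
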